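import Vale.Agent.P058.RV.Diag

namespace Vale.Agent.Results.P058.A0000000000_FatQuadrilaterals

open Vale.Agent.P058

/-- `ABCD` is a convex cyclic quadrilateral without parallel sides: four distinct points on a sphere, the
diagonals `AC`, `BD` cross at the point `(1-p) A + p C = (1-q) B + q D`, `0 < p, q < 1`; `p ≠ q` (`AB ∦ CD`),
`p + q ≠ 1` (`AD ∦ BC`). -/
def ConvexCyclic {n : ℕ} (A B C D : E n) (p q : ℝ) : Prop :=
  (∃ (O : E n) (r : ℝ), dist A O = r ∧ dist B O = r ∧ dist C O = r ∧ dist D O = r) ∧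
    (1 - p) • A + p • C = (1 - q) • B + q • D ∧ 0 < p ∧ p < 1 ∧ 0 < q ∧ q < 1 ∧ p ≠ q ∧ p + q ≠ 1 ∧
    A ≠ B ∧ A ≠ C ∧ A ≠ D ∧ B ≠ D ∧ C ≠ D

/-- `|XY|² / |ZW|²` is a positive rational number -/
def RatRatio {n : ℕ} (X Y Z W : E n) : Prop :=
  ∃ N M : ℕ, 0 < N ∧ 0 < M ∧ (M : ℝ) * dist X Y ^ 2 = N * dist Z W ^ 2

/-- `{A, B, C, D}` is Ramsey and subtransitive. -/
def Good {n : ℕ} (A B C D : E n) : Prop :=
  IsRamsey ({A, B, C, D} : Set (E n)) ∧ IsSubtransitive ({A, B, C, D} : Set (E n))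

/-- Convex cyclic quadrilaterals `ABCD` without parallel sides.
(A) `|AB|² / |CD|²` rational, `⟪C - A, D - B⟫ ≤ 0 ≤ ⟪D - A, C - B⟫`: Ramsey and subtransitive.
(B) `|AC|² / |BD|²` rational (diagonals), `⟪D - A, C - B⟫ ≥ 0`, `⟪B - A, C - D⟫ ≥ 0` (both pairs of opposite sides,
directed the same way, make non-obtuse angles): Ramsey and subtransitive.
(C) `|AB|² / |CD|²` and `|BC|² / |DA|²` rational, `⟪D - A, C - B⟫ ≥ 0`, `⟪B - A, C - D⟫ ≥ 0`: Ramsey and
subtransitive. -/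
theorem result :
    (∀ (n : ℕ) (A B C D : E n) (p q : ℝ), ConvexCyclic A B C D p q → RatRatio A B C D →
      inner ℝ (C - A) (D - B) ≤ 0 → 0 ≤ inner ℝ (D - A) (C - B) → Good A B C D) ∧
    (∀ (n : ℕ) (A B C D : E n) (p q : ℝ), ConvexCyclic A B C D p q → RatRatio A C B D →
      0 ≤ inner ℝ (D - A) (C - B) → 0 ≤ inner ℝ (B - A) (C - D) → Good A B C D) ∧
    (∀ (n : ℕ) (A B C D : E n) (p q : ℝ), ConvexCyclic A B C D p q → RatRatio A B C D →
      RatRatio B C D A →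
      0 ≤ inner ℝ (D - A) (C - B) → 0 ≤ inner ℝ (B - A) (C - D) → Good A B C D) := by
  refine ⟨?_, ?_, ?_⟩
  · rintro n A B C D p q ⟨⟨O, r, hA, hB, hC, hD⟩, hrel, hp0, hp1, hq0, hq1, hne, hpq, hAB, hAC, hAD,
      hBD, hCD⟩ ⟨N, M, hN, hM, hside⟩ h1 h2
    exact (RV.sol_hull A B C D O r p q hA hB hC hD hp0 hp1 hq0 hq1 hpq hrel hAC hCD N M hN hM hside
      h1 h2).both
  · rintro n A B C D p q ⟨⟨O, r, hA, hB, hC, hD⟩, hrel, hp0, hp1, hq0, hq1, hne, hpq, hAB, hAC, hAD,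
      hBD, hCD⟩ ⟨N, M, hN, hM, hside⟩ h1 h2
    exact (RV.sol_diag A B C D O r p q hA hB hC hD hp0 hp1 hq0 hq1 hne hpq hrel hAB hBD N M hN hM
      hside h1 h2).both
  · rintro n A B C D p q ⟨⟨O, r, hA, hB, hC, hD⟩, hrel, hp0, hp1, hq0, hq1, hne, hpq, hAB, hAC, hAD,
      hBD, hCD⟩ ⟨N, M, hN, hM, hside⟩ ⟨N', M', hN', hM', hside'⟩ h1 h2
    rcases le_total (inner ℝ (C - A) (D - B)) 0 with h0 | h0
    · exact (RV.sol_hull A B C D O r p q hA hB hC hD hp0 hp1 hq0 hq1 hpq hrel hAC hCD N M hN hM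
        hside h0 h1).both
    · have hrel' : (1 - q) • B + q • D = (1 - (1 - p)) • C + (1 - p) • A := by
        rw [← hrel, add_comm]; congr 1; congr 1; ring
      have i1 : inner ℝ (D - B) (A - C) = - inner ℝ (C - A) (D - B) := by
        rw [← neg_sub C A, inner_neg_right, real_inner_comm]
      have i2 : inner ℝ (A - B) (D - C) = inner ℝ (B - A) (C - D) := by
        rw [← neg_sub B A, ← neg_sub C D, inner_neg_neg]
      have := (RV.sol_hull B C D A O r q (1 - p) hB hC hD hA hq0 hq1 (by linarith) (by linarith)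
        (by intro h; apply hne; linarith) hrel' hBD (Ne.symm hAD) N' M' hN' hM' hside'
        (by rw [i1]; linarith) (by rw [i2]; exact h2)).both
      have hset : ({A, B, C, D} : Set (E n)) = {B, C, D, A} := by
        ext x; simp only [Set.mem_insert_iff, Set.mem_singleton_iff]; tauto
      unfold Good
      rw [hset]; exact this

end Vale.Agent.Results.P058.A0000000000_FatQuadrilaterals
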