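import Vale.Agent.P058.KiteTR
import Vale.Agent.P058.Quad.Main
import Vale.Agent.P058.Quad.Obstr
import Vale.Agent.P058.RU.Main
import Vale.Agent.P058.RU.SubB
import Vale.Agent.P058.RV.Main

namespace Vale.Agent.Results.P058.A000000000_RamseyQuadrilaterals

open Vale.Agent.P058 Polynomial

/-- `A B C D` lie on a sphere, `A ≠ C`, and the lines `AC`, `BD` meet:
`(1-p) A + p C = (1-q) B + q D` with real `p`, `q`, `q ≠ 0, 1`. -/
def Setting {n : ℕ} (A B C D : E n) (p q : ℝ) : Prop :=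
  (∃ (O : E n) (r : ℝ), dist A O = r ∧ dist B O = r ∧ dist C O = r ∧ dist D O = r) ∧
    (1 - p) • A + p • C = (1 - q) • B + q • D ∧ A ≠ C ∧ q ≠ 0 ∧ q ≠ 1

/-- `C ≠ D` and `M |AB|² = N |CD|²` with positive integers `N`, `M`. -/
def Ratio {n : ℕ} (A B C D : E n) (N M : ℕ) : Prop :=
  C ≠ D ∧ 0 < N ∧ 0 < M ∧ (M : ℝ) * dist A B ^ 2 = N * dist C D ^ 2

/-- `{A, B, C, D}` is Ramsey and subtransitive. -/
def Good {n : ℕ} (A B C D : E n) : Prop :=
  IsRamsey ({A, B, C, D} : Set (E n)) ∧ IsSubtransitive ({A, B, C, D} : Set (E n))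

/-- (0) Four points `A B C D` of a sphere such that the lines `AC` and `BD` meet (`p`, `q` arbitrary real
numbers, `q ≠ 0, 1`: `AB`, `CD` may be opposite sides or the diagonals of the cyclic quadrilateral) with
`M |AB|² = N |CD|²` for positive integers `N, M` and `N M ⟪C - A, D - B⟫² < |AC|² |BD|²` (or equality
and `⟪C - A, D - B⟫ (N (1 - q) + M q) ≤ 0`) form a Ramsey and subtransitive set.
(H) The same conclusion if `M |AB|² = N |CD|²`, `p ≠ 0, 1`, `p + q ≠ 1` and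
`p(1-p) ⟪D - A, C - B⟫ ≥ 0 ≥ p(1-p) (pq + (1-p)(1-q)) ⟪C - A, D - B⟫`; for crossing chords (`0 < p, q < 1`) this
reads `⟪C - A, D - B⟫ ≤ 0 ≤ ⟪D - A, C - B⟫`, a region of shapes which does not depend on `N`, `M`.
(M) The same if `|1 - 2p|^k = |1 - 2q|^l`, `0 < k ≤ l`, `q ≠ 0, 1, 1/2`, and
`⟪C - A, D - B⟫ (1 - 2q) = h (1 - 2p) |AC|²` for some `0 ≤ h ≤ 1` (`h = 0`: `AC ⊥ BD`).
(1) In the same setting (distinct points) `|AB|² / |CD|²` rational implies subtransitive, for all angles.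
(2) If the lines `AC`, `BD` cut each other in ratios `p = i P`, `q = i Q` with `P, Q` in a
field `K` embedded in `ℝ` by `i`, and another embedding `s` of `K` in `ℝ` makes `P (1-P) Q (1-Q)`
negative, then the quadrilateral is not subtransitive.
(3) A right kite whose cosine `t` is algebraic with all conjugates real is subtransitive if and only
if all conjugates of `t` lie in `(-1, 1)`, and then it is Ramsey. -/
theorem result :
    (∀ (n : ℕ) (A B C D : E n) (p q : ℝ) (N M : ℕ), Setting A B C D p q → Ratio A B C D N M →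
      ((N : ℝ) * M * inner ℝ (C - A) (D - B) ^ 2 < ‖C - A‖ ^ 2 * ‖D - B‖ ^ 2 ∨
        ((N : ℝ) * M * inner ℝ (C - A) (D - B) ^ 2 = ‖C - A‖ ^ 2 * ‖D - B‖ ^ 2 ∧
          inner ℝ (C - A) (D - B) * (N * (1 - q) + M * q) ≤ 0)) → Good A B C D) ∧
    (∀ (n : ℕ) (A B C D : E n) (p q : ℝ) (N M : ℕ), Setting A B C D p q → Ratio A B C D N M →
      p ≠ 0 → p ≠ 1 → p + q ≠ 1 → 0 ≤ p * (1 - p) * inner ℝ (D - A) (C - B) →
      p * (1 - p) * (p * q + (1 - p) * (1 - q)) * inner ℝ (C - A) (D - B) ≤ 0 → Good A B C D) ∧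
    (∀ (n : ℕ) (A B C D : E n) (p q : ℝ), Setting A B C D p q → q ≠ 1 / 2 →
      ∀ k l : ℕ, 0 < k → k ≤ l → |1 - 2 * p| ^ k = |1 - 2 * q| ^ l →
      ∀ h : ℝ, 0 ≤ h → h ≤ 1 →
      inner ℝ (C - A) (D - B) * (1 - 2 * q) = h * (1 - 2 * p) * ‖C - A‖ ^ 2 → Good A B C D) ∧
    (∀ (n : ℕ) (A B C D : E n) (p q : ℝ), Setting A B C D p q → B ≠ D → A ≠ D → C ≠ D →
      (∃ ρ : ℚ, dist A B ^ 2 = ρ * dist C D ^ 2) → IsSubtransitive ({A, B, C, D} : Set (E n))) ∧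
    (∀ (n : ℕ) (A B C D : E n) (K : Type) [Field K] (i s : K →+* ℝ) (P Q : K),
      (1 - i P) • A + i P • C = (1 - i Q) • B + i Q • D → A ≠ C → B ≠ D →
      s (P * (1 - P) * (Q * (1 - Q))) < 0 → ¬ IsSubtransitive ({A, B, C, D} : Set (E n))) ∧
    (∀ t s : ℝ, t ^ 2 + s ^ 2 = 1 → s ≠ 0 → IsAlgebraic ℚ t →
      ((minpoly ℚ t).map (algebraMap ℚ ℝ)).Splits →
      (IsSubtransitive (kite t s) ↔ ∀ y : ℝ, aeval y (minpoly ℚ t) = 0 → |y| < 1) ∧
        (IsSubtransitive (kite t s) → IsRamsey (kite t s))) := by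
  refine ⟨?_, ?_, ?_, ?_, ?_, ?_⟩
  · rintro n A B C D p q N M ⟨⟨O, r, hA, hB, hC, hD⟩, hrel, hAC, hq0, hq1⟩ ⟨hCD, hN, hM, hside⟩ h1
    exact (RU.sol_quad3 A B C D O r p q hA hB hC hD hq0 hq1 hrel hAC hCD N M hN hM hside
      h1).both
  · rintro n A B C D p q N M ⟨⟨O, r, hA, hB, hC, hD⟩, hrel, hAC, hq0, hq1⟩ ⟨hCD, hN, hM, hside⟩
      hp0 hp1 hpq h1 h2
    exact (RV.sol_hull' A B C D O r p q hA hB hC hD hp0 hp1 hq0 hq1 hpq hrel hAC hCD N M hN hM hside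
      h1 h2).both
  · rintro n A B C D p q ⟨⟨O, r, hA, hB, hC, hD⟩, hrel, hAC, hq0, hq1⟩ hq k l hk hkl hcl h hh0 hh1
      hang
    exact (RU.sol_mult' A B C D O r p q hA hB hC hD hq0 hq1 hrel hAC k l hk hkl hcl
      (fun e => hq (by linarith)) h hh0 hh1 hang).both
  · rintro n A B C D p q ⟨⟨O, r, hA, hB, hC, hD⟩, hrel, hAC, hq0, hq1⟩ hBD hAD hCD ⟨ρ, hρ⟩
    exact RU.concyclic_subtransitive A B C D O r p q hA hB hC hD hq0 hq1 hrel hAC hBD hAD hCD ρ hρ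
  · intro n A B C D K _ i s P Q hrel hAC hBD hneg
    exact Quad.quad_not_subtransitive A B C D i s P Q hrel hAC hBD hneg
  · intro t s hts hs halg hsplit
    exact kite_totally_real_iff t s hts hs halg hsplit

end Vale.Agent.Results.P058.A000000000_RamseyQuadrilaterals
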