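import Vale.Agent.P058.KiteTR
import Vale.Agent.P058.KiteObstruction
import Vale.Agent.P058.ObstructionSub

namespace Vale.Agent.Results.P058.A000_Combined

open Vale.Agent.P058 Polynomial
open scoped BigOperators

/-- (1) Right kites `{(1,0), (-1,0), (t,s), (t,-s)}` with totally real algebraic `t`: subtransitive iff
all conjugates of `t` lie in `(-1,1)`, and then Ramsey.  (2) Right kites with `t` transcendental or with
a real conjugate of absolute value larger than one are spherical but not subtransitive.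
(3) The general arithmetic obstruction to subtransitivity. -/
theorem result.{u, v} :
    (∀ t s : ℝ, t ^ 2 + s ^ 2 = 1 → s ≠ 0 → IsAlgebraic ℚ t →
      ((minpoly ℚ t).map (algebraMap ℚ ℝ)).Splits →
      (IsSubtransitive (kite t s) ↔ ∀ y : ℝ, aeval y (minpoly ℚ t) = 0 → |y| < 1) ∧
        (IsSubtransitive (kite t s) → IsRamsey (kite t s))) ∧
    (∀ t s : ℝ, t ^ 2 + s ^ 2 = 1 → s ≠ 0 →
      (Transcendental ℚ t ∨ ∃ t' : ℝ, aeval t' (minpoly ℚ t) = 0 ∧ 1 < |t'|) →
      IsSpherical (kite t s) ∧ ¬ IsSubtransitive (kite t s)) ∧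
    (∀ (d : ℕ) (A : Set (E d)), IsSubtransitive A →
      ∀ (K : Type u) [Field K] (i s : K →+* ℝ) (J : Type v) [Fintype J]
        (y : J → E d), (∀ j, y j ∈ A) → ∀ μ : J → K, ∑ j, μ j = 0 →
        ∑ j, i (μ j) • y j = 0 → ∀ j0 : J, (∀ j, j ≠ j0 → s (μ j) ≤ 0) →
        ∀ j, μ j ≠ 0 → y j = y j0) := by
  refine ⟨fun t s hts hs halg hsplit => kite_totally_real_iff t s hts hs halg hsplit, ?_,
    fun d A hA K _ i s J _ y hy μ hμ hrel j0 hneg =>
      obstruction_subtransitive hA i s y hy μ hμ hrel j0 hneg⟩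
  intro t s hts hs h
  refine ⟨kite_spherical t s hts, ?_⟩
  have hle : |t| ≤ 1 := by
    rw [← sq_le_one_iff_abs_le_one]
    nlinarith [sq_nonneg s]
  by_cases halg : IsAlgebraic ℚ t
  · rcases h with h | ⟨t', h1, h2⟩
    · exact absurd halg h
    · exact kite_not_subtransitive_algebraic t s hs halg t' h1 h2
  · exact kite_not_subtransitive_transcendental t s hs halg hle

end Vale.Agent.Results.P058.A000_Combined
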