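import Vale.Agent.P058.KiteTR

namespace Vale.Agent.Results.P058.A0_TotallyRealKites

open Vale.Agent.P058 Polynomial

/-- Let `t` be a real algebraic number all of whose conjugates are real, and `K` the right kite
`{(1,0), (-1,0), (t,s), (t,-s)}` inscribed in the unit circle.  Then `K` is subtransitive if and only
if all conjugates of `t` lie in `(-1, 1)`, and in that case `K` is Ramsey. -/
theorem result (t s : ℝ) (hts : t ^ 2 + s ^ 2 = 1) (hs : s ≠ 0) (halg : IsAlgebraic ℚ t)
    (hsplit : ((minpoly ℚ t).map (algebraMap ℚ ℝ)).Splits) :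
    (IsSubtransitive (kite t s) ↔ ∀ y : ℝ, aeval y (minpoly ℚ t) = 0 → |y| < 1) ∧
      (IsSubtransitive (kite t s) → IsRamsey (kite t s)) :=
  kite_totally_real_iff t s hts hs halg hsplit

end Vale.Agent.Results.P058.A0_TotallyRealKites
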