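import Vale.Agent.P058.KiteRat
import Vale.Agent.P058.RationalKite

namespace Vale.Agent.Results.P058.A_RationalKitesRamsey

open Vale.Agent.P058

/-- Every right kite `{(1,0), (-1,0), (q,s), (q,-s)}` inscribed in the unit circle whose cosine `q`
is rational is a Ramsey set (and it is subtransitive). -/
theorem result (q : ℚ) (s : ℝ) (hqs : (q : ℝ) ^ 2 + s ^ 2 = 1) (hs : s ≠ 0) :
    IsRamsey (kite (q : ℝ) s) ∧ IsSubtransitive (kite (q : ℝ) s) := by
  refine ⟨kite_ramsey_rat q s hqs hs, kite_subtransitive_rat q ?_ s hqs⟩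
  have h1 : (q : ℝ) ^ 2 < 1 := by
    have : 0 < s ^ 2 := by positivity
    linarith
  have h2 : |(q : ℝ)| < 1 := (sq_lt_one_iff_abs_lt_one _).1 h1
  exact_mod_cast h2

end Vale.Agent.Results.P058.A_RationalKitesRamsey
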