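import Vale.Agent.P058.ObstructionSub

namespace Vale.Agent.Results.P058.ConjugateObstruction

open Vale.Agent.P058
open scoped BigOperators

/-- Arithmetic obstruction to subtransitivity. Let `A` be subtransitive and let points `y j` of `A`
satisfy an affine dependency `∑ i (μ j) • y j = 0`, `∑ μ j = 0`, whose coefficients lie in a field `K`
embedded in the reals by `i`. Then for every other embedding `s` of `K` in the reals the conjugated
coefficient vector `s (μ j)` cannot have a single positive entry: if all entries but the one at `j0`
are nonpositive, then all points occurring with a nonzero coefficient coincide. -/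
theorem result {d : ℕ} {A : Set (E d)} (hA : IsSubtransitive A)
    {K : Type*} [Field K] (i s : K →+* ℝ) {J : Type*} [Fintype J]
    (y : J → E d) (hy : ∀ j, y j ∈ A) (μ : J → K) (hμ : ∑ j, μ j = 0)
    (hrel : ∑ j, i (μ j) • y j = 0) (j0 : J) (hneg : ∀ j, j ≠ j0 → s (μ j) ≤ 0) :
    ∀ j, μ j ≠ 0 → y j = y j0 :=
  obstruction_subtransitive hA i s y hy μ hμ hrel j0 hneg

end Vale.Agent.Results.P058.ConjugateObstruction
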