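import Vale.Agent.P058.KiteObstruction
import Vale.Agent.P058.RationalKite
import Vale.Agent.P058.ExplicitKite

namespace Vale.Agent.Results.P058.KiteDichotomy

open Vale.Agent.P058 Polynomial

/-- Right kites `(1,0), (-1,0), (t,s), (t,-s)` inscribed in the unit circle:
they are subtransitive when `t` is rational, and they are spherical but not subtransitive when `t` is
transcendental or has a real Galois conjugate of absolute value larger than one
(for instance `t = 2 * sqrt 2 - 3`). -/
theorem result :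
    (∀ (q : ℚ) (s : ℝ), (q : ℝ) ^ 2 + s ^ 2 = 1 → s ≠ 0 → IsSubtransitive (kite (q : ℝ) s)) ∧
    (∀ t s : ℝ, t ^ 2 + s ^ 2 = 1 → s ≠ 0 →
      (Transcendental ℚ t ∨ ∃ t' : ℝ, aeval t' (minpoly ℚ t) = 0 ∧ 1 < |t'|) →
      IsSpherical (kite t s) ∧ ¬ IsSubtransitive (kite t s)) ∧
    (∀ s : ℝ, (2 * Real.sqrt 2 - 3) ^ 2 + s ^ 2 = 1 → s ≠ 0 →
      IsSpherical (kite (2 * Real.sqrt 2 - 3) s) ∧
        ¬ IsSubtransitive (kite (2 * Real.sqrt 2 - 3) s)) := by
  refine ⟨?_, ?_, ?_⟩
  · intro q s hqs hs
    refine kite_subtransitive_rat q ?_ s hqs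
    have h1 : (q : ℝ) ^ 2 < 1 := by
      have : 0 < s ^ 2 := by positivity
      linarith
    have h2 : |(q : ℝ)| < 1 := by
      rw [← sq_lt_one_iff_abs_lt_one]; exact h1
    exact_mod_cast h2
  · intro t s hts hs h
    refine ⟨kite_spherical t s hts, ?_⟩
    have hle : |t| ≤ 1 := by
      rw [← sq_le_one_iff_abs_le_one]
      nlinarith [sq_nonneg s]
    by_cases halg : IsAlgebraic ℚ t
    · rcases h with h | ⟨t', h1, h2⟩
      · exact absurd halg h
      · exact kite_not_subtransitive_algebraic t s hs halg t' h1 h2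
    · exact kite_not_subtransitive_transcendental t s hs halg hle
  · intro s hts hs
    exact ⟨kite_spherical _ s hts, explicit_kite_not_subtransitive s hs⟩

end Vale.Agent.Results.P058.KiteDichotomy
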