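import Vale.Agent.P058.KiteTR
import Vale.Agent.P058.Quad.Main
import Vale.Agent.P058.Quad.Obstr
import Vale.Agent.P058.RS.Main

namespace Vale.Agent.Results.P058.Z_RamseyQuadrilaterals1

open Vale.Agent.P058 Polynomial

/-- (0) A cyclic quadrilateral `ABCD` (points on a sphere, the chords `AC` and `BD` cross) with
`M |AB|² = N |CD|²` for positive integers `N, M` and `N M ⟪C - A, D - B⟫² < |AC|² |BD|²` (or equality
and `⟪C - A, D - B⟫ ≤ 0`) is Ramsey; for instance if the diagonals are perpendicular and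
`|AB|² / |CD|²` is rational.
(1) A cyclic quadrilateral `ABCD` with `|AB|² / |CD|²` rational is subtransitive.
(2) If the diagonals of a quadrilateral cut each other in ratios `p = i P`, `q = i Q` with `P, Q` in a
field `K` embedded in `ℝ` by `i`, and another embedding `s` of `K` in `ℝ` makes `P (1-P) Q (1-Q)`
negative, then the quadrilateral is not subtransitive.
(3) A right kite whose cosine `t` is algebraic with all conjugates real is subtransitive if and only
if all conjugates of `t` lie in `(-1, 1)`, and then it is Ramsey. -/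
theorem result :
    (∀ (n : ℕ) (A B C D O : E n) (r p q : ℝ), dist A O = r → dist B O = r → dist C O = r →
      dist D O = r → 0 < p → p < 1 → 0 < q → q < 1 →
      (1 - p) • A + p • C = (1 - q) • B + q • D → A ≠ C → C ≠ D →
      ∀ N M : ℕ, 0 < N → 0 < M → (M : ℝ) * dist A B ^ 2 = N * dist C D ^ 2 →
      ((N : ℝ) * M * inner ℝ (C - A) (D - B) ^ 2 < ‖C - A‖ ^ 2 * ‖D - B‖ ^ 2 ∨
        ((N : ℝ) * M * inner ℝ (C - A) (D - B) ^ 2 = ‖C - A‖ ^ 2 * ‖D - B‖ ^ 2 ∧
          inner ℝ (C - A) (D - B) ≤ 0)) →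
      IsRamsey ({A, B, C, D} : Set (E n))) ∧
    (∀ (n : ℕ) (A B C D O : E n) (r p q : ℝ), dist A O = r → dist B O = r → dist C O = r →
      dist D O = r → 0 < p → p < 1 → 0 < q → q < 1 →
      (1 - p) • A + p • C = (1 - q) • B + q • D → A ≠ C → A ≠ D → C ≠ D →
      (∃ ρ : ℚ, dist A B ^ 2 = ρ * dist C D ^ 2) → IsSubtransitive ({A, B, C, D} : Set (E n))) ∧
    (∀ (n : ℕ) (A B C D : E n) (K : Type) [Field K] (i s : K →+* ℝ) (P Q : K),
      (1 - i P) • A + i P • C = (1 - i Q) • B + i Q • D → A ≠ C → B ≠ D →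
      s (P * (1 - P) * (Q * (1 - Q))) < 0 → ¬ IsSubtransitive ({A, B, C, D} : Set (E n))) ∧
    (∀ t s : ℝ, t ^ 2 + s ^ 2 = 1 → s ≠ 0 → IsAlgebraic ℚ t →
      ((minpoly ℚ t).map (algebraMap ℚ ℝ)).Splits →
      (IsSubtransitive (kite t s) ↔ ∀ y : ℝ, aeval y (minpoly ℚ t) = 0 → |y| < 1) ∧
        (IsSubtransitive (kite t s) → IsRamsey (kite t s))) := by
  refine ⟨?_, ?_, ?_, ?_⟩
  · intro n A B C D O r p q hA hB hC hD hp0 hp1 hq0 hq1 hrel hAC hCD N M hN hM hside h1
    exact RS.ramsey_quad2 A B C D O r p q hA hB hC hD hp0 hp1 hq0 hq1 hrel hAC hCD N M hN hM hside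
      h1
  · rintro n A B C D O r p q hA hB hC hD hp0 hp1 hq0 hq1 hrel hAC hAD hCD ⟨ρ, hρ⟩
    exact Quad.cyclic_quadrilateral_subtransitive A B C D O r p q hA hB hC hD hp0 hp1 hq0 hq1 hrel
      hAC hAD hCD ρ hρ
  · intro n A B C D K _ i s P Q hrel hAC hBD hneg
    exact Quad.quad_not_subtransitive A B C D i s P Q hrel hAC hBD hneg
  · intro t s hts hs halg hsplit
    exact kite_totally_real_iff t s hts hs halg hsplit

end Vale.Agent.Results.P058.Z_RamseyQuadrilaterals1
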